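import Vale.Agent.P144.H436.Plane
import Vale.Agent.P144D.Dom.Convex
import Vale.Agent.P144D.I.U.All
import Vale.Agent.P144E.Ge5.B

namespace Vale.Agent.Results.P144.AAUniversality

open Filter Topology Vale.Agent.P144 Vale.Agent.P144Z

theorem result :
    (∃ κ : ℝ → ℝ, (∀ α > 0, 0 < κ α) ∧
      ∀ J > 0, ∀ V, IsPotential V → ∀ ε > 0, ∃ lam₀ > 0, ∀ lam : ℝ, |lam| < lam₀ →
        ∃ β > 0, ∃ Zσ Zε : ℝ, |β - Kc / J| < ε ∧ |Zσ - 1| < ε ∧ |Zε - 1| < ε ∧ Zσ ≠ 0 ∧ Zε ≠ 0 ∧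
          (∃ μ, IsPlaneState J lam V β μ ∧ IsTorusState J lam V β μ ∧
            ∀ E₀, PlaneFam J 0 (fun _ => 0) (Kc / J) E₀ →
              Diff Set.univ E₀ (famOf μ) Zσ Zε ∧ Identity Set.univ E₀ (famOf μ) Zσ Zε) ∧
          ∀ D b, ((IsC1 D ∨ IsPC1 D ∨ IsPolygon D ∨
                IsOpen D ∧ Bornology.IsBounded D ∧ Convex ℝ D) ∧ SignBC D b ∨
              IsLip (κ 1) D ∧ StdBC b ∨ ∃ α > 0, TameK α (κ α) D ∧ SignK α (κ α) D b) →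
            Diff D (crit J D b) (inDom J lam V β D b) Zσ Zε ∧
              Identity D (crit J D b) (inDom J lam V β D b) Zσ Zε) ∧
    (∀ J > 0, ∃ E₀, PlaneFam J 0 (fun _ => 0) (Kc / J) E₀) ∧
    (∀ D b, StdBC b → SignBC D b) ∧
    (∀ D P : Set ℂ, Bornology.IsBounded D →
      (∀ z ∈ frontier D, (∀ᶠ w in 𝓝 z, w ∉ D → w ∈ P) ∨ (∀ᶠ w in 𝓝 z, w ∉ D → w ∉ P) ∨
        ∃ F G : ℂ → ℝ, ContDiffAt ℝ 1 F z ∧ ContDiffAt ℝ 1 G z ∧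
          (∀ s t : ℝ, s • fderiv ℝ F z + t • fderiv ℝ G z = 0 → s = 0 ∧ t = 0) ∧
          ∀ᶠ w in 𝓝 z, (w ∈ D ↔ 0 < F w) ∧ (w ∉ D → (w ∈ P ↔ 0 < G w))) →
      SignBC D (some (bcOf P))) ∧
    SignBC (Metric.ball 0 1) (some (bcOf {z | 0 < z.im})) := by
  refine ⟨?_, fun J hJ => ?_, fun D _ h => h.signBC D,
    fun D P hb h => Or.inr ⟨P, pw_local hb h, rfl⟩, Or.inr ⟨_, pw_disc, rfl⟩⟩
  · obtain ⟨κ, hκ, h⟩ := domQ5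
    refine ⟨κ, hκ, fun J hJ V hV ε hε => (h J hJ V hV ε hε).imp fun _ h => ⟨h.1, fun lam hl => ?_⟩⟩
    obtain ⟨β, hβ, Zσ, Zε, h1, h2, h3, h4, h5, h6, h7⟩ := h.2 lam hl
    refine ⟨β, hβ, Zσ, Zε, h1, h2, h3, h4, h5, h6, fun D b hD => ?_⟩
    rcases hD with ⟨hD, hb⟩ | ⟨hD, hb⟩ | ⟨α, hα, hD, hb⟩
    · obtain ⟨α, hα, hD⟩ : ∃ α > 0, TameW α D := by
        rcases hD with hD | hD | hD | ⟨o, bd, cv⟩
        · exact ⟨1, one_pos, TameW.of_tame ((tame_of_C1 hD).mono one_le_two)⟩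
        · exact tameW_of_PC1 hD
        · exact tameW_of_PC1 hD.isPC1
        · exact (tame_of_convex o bd cv).imp fun _ h => ⟨h.1, TameW.of_tame h.2⟩
      obtain ⟨α', hα', h⟩ := tameK_of hα hD hb
      exact h7 α' hα' D b (h _ (hκ α' hα')).1 (h _ (hκ α' hα')).2
    · exact h7 1 one_pos D b (hD.tameK (hκ 1 one_pos).le) (hb.signK _ _ D)
    · exact h7 α hα D b hD hb
  · obtain ⟨μ, hμ, -⟩ := H436.free_plane hJ
    exact ⟨fun _ F => ∫ σ, F σ ∂μ, fun _ => μ, fun _ _ => hμ, fun _ _ => rfl⟩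

end Vale.Agent.Results.P144.AAUniversality
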