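import Vale.Agent.P144.H436.Plane
import Vale.Agent.P144Z.U4.Main
import Vale.Agent.P144Z.R7.Main
import Vale.Agent.P144Z.S.Main
import Vale.Agent.P144Z.FM.Main
import Vale.Agent.P144Z.M.Main

namespace Vale.Agent.Results.P144.APlane

open Filter Topology Vale.Agent.P144 Vale.Agent.P144Z

theorem result :
    ∀ J > 0, (∃ E₀, PlaneFam J 0 (fun _ => 0) (Kc / J) E₀) ∧
      ∀ V, IsPotential V → ∀ ε > 0, ∃ lam₀ > 0, ∀ lam : ℝ, |lam| < lam₀ →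
        ∃ β > 0, ∃ Zσ Zε : ℝ, |β - Kc / J| < ε ∧ |Zσ - 1| < ε ∧ |Zε - 1| < ε ∧ Zσ ≠ 0 ∧ Zε ≠ 0 ∧
          ∃ μ, IsTorusState J lam V β μ ∧
            ∀ E₀, PlaneFam J 0 (fun _ => 0) (Kc / J) E₀ →
              (∀ p, Good Set.univ p → Tendsto
                (fun a => corr a (famOf μ a) p - Zσ ^ p.n * Zε ^ p.m * corr a (E₀ a) p)
                (𝓝[>] 0) (𝓝 0)) ∧
              Identity Set.univ E₀ (famOf μ) Zσ Zε := by
  intro J hJ
  obtain ⟨μ, hμ, -⟩ := H436.free_plane hJ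
  exact ⟨⟨fun _ F => ∫ σ, F σ ∂μ, fun _ => μ, fun _ _ => hμ, fun _ _ => rfl⟩,
    planeQ1_of crit_par0 bulkStmt stateStmt (mainStmt_of flowStmt) J hJ⟩

end Vale.Agent.Results.P144.APlane
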